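import Mathlib.NumberTheory.Padics.PadicIntegers
import Mathlib.NumberTheory.Padics.ProperSpace
import Mathlib.LinearAlgebra.FreeModule.StrongRankCondition
import Mathlib.LinearAlgebra.Dimension.Constructions
import Mathlib.RingTheory.Finiteness.Basic
import Mathlib.Analysis.SpecificLimits.Normed
import Mathlib.Tactic

/-!
# P261: finite generation over `ℤ_p` from finite torsion and finite rational rank (helper700)
-/

namespace Vale.Agent.P261.R2.H700

open Finset

section Rational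

variable {p : ℕ} [Fact p.Prime]

/-- Tails of `p`-adic sums. -/
theorem exists_tails (a : ℕ → ℤ_[p]) : ∃ α : ℕ → ℤ_[p], ∀ k, α k = a k + (p : ℤ_[p]) * α (k + 1) := by
  have hp1 : ((p : ℝ)⁻¹) < 1 := inv_lt_one_of_one_lt₀ (by exact_mod_cast (Fact.out : p.Prime).one_lt)
  have hp0 : 0 ≤ ((p : ℝ)⁻¹) := by positivity
  have hs : ∀ k, Summable fun j => (p : ℤ_[p]) ^ j * a (k + j) := by
    intro k
    refine Summable.of_norm_bounded (g := fun j => ((p : ℝ)⁻¹) ^ j)
      (summable_geometric_of_lt_one hp0 hp1) fun j => ?_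
    rw [norm_mul, norm_pow, PadicInt.norm_p]
    exact mul_le_of_le_one_right (by positivity) (PadicInt.norm_le_one _)
  refine ⟨fun k => ∑' j, (p : ℤ_[p]) ^ j * a (k + j), fun k => ?_⟩
  show ∑' j, (p : ℤ_[p]) ^ j * a (k + j) =
    a k + (p : ℤ_[p]) * ∑' j, (p : ℤ_[p]) ^ j * a (k + 1 + j)
  rw [(hs k).tsum_eq_zero_add, pow_zero, one_mul, add_zero, ← (hs (k + 1)).tsum_mul_left]
  congr 1
  refine tsum_congr fun j => ?_
  rw [pow_succ', mul_assoc, add_assoc, add_comm 1 j]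

variable {V : Type*} [AddCommGroup V] [Module ℤ_[p] V]

/-- The family `x` is independent modulo `p` and torsion. -/
def Indep (p : ℕ) [Fact p.Prime] {V : Type*} [AddCommGroup V] [Module ℤ_[p] V] {m : ℕ}
    (x : Fin m → V) : Prop :=
  ∀ (l : Fin m → ℤ_[p]) (t w : V) (N : ℕ), (p : ℤ_[p]) ^ N • t = 0 →
    ∑ i, l i • x i = t + (p : ℤ_[p]) • w → ∀ i, (p : ℤ_[p]) ∣ l i

theorem indep_descent {m : ℕ} {x : Fin m → V} (hx : Indep p x) (s : ℕ) : ∀ l : Fin m → ℤ_[p],
    (∃ N : ℕ, (p : ℤ_[p]) ^ N • ∑ i, l i • x i = 0) → ∀ i, (p : ℤ_[p]) ^ s ∣ l i := by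
  induction s with
  | zero => intro l _ i; rw [pow_zero]; exact one_dvd _
  | succ s ih =>
    rintro l ⟨N, hN⟩ i
    have h1 : ∀ i, (p : ℤ_[p]) ∣ l i :=
      hx l (∑ i, l i • x i) 0 N hN (by rw [smul_zero, add_zero])
    choose l' hl' using h1
    have h2 := ih l' ⟨N + 1, by
      rw [pow_succ, mul_smul, Finset.smul_sum]
      have h3 : ∑ i, (p : ℤ_[p]) • l' i • x i = ∑ i, l i • x i :=
        Finset.sum_congr rfl fun i _ => by rw [smul_smul, ← hl' i]
      rw [h3, hN]⟩ i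
    rw [hl' i, pow_succ']
    exact mul_dvd_mul_left _ h2

theorem indep_card_le {d : ℕ} (b : Fin d → V)
    (hb : ∀ v : V, ∃ (N : ℕ) (a : Fin d → ℤ_[p]), (p : ℤ_[p]) ^ N • v = ∑ i, a i • b i)
    {m : ℕ} {x : Fin m → V} (hx : Indep p x) : m ≤ d := by
  by_contra hmd
  have hmd' : d < m := not_le.1 hmd
  choose N A hA using fun i => hb (x i)
  have hnl : ¬ LinearIndependent ℤ_[p] A := by
    intro hl
    have h1 := hl.fintype_card_le_finrank
    rw [Module.finrank_fin_fun, Fintype.card_fin] at h1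
    omega
  rw [Fintype.not_linearIndependent_iff] at hnl
  obtain ⟨μ, hμ, i0, hi0⟩ := hnl
  have h1 : ∑ i, (μ i * (p : ℤ_[p]) ^ N i) • x i = 0 := by
    have h2 : ∀ i, (μ i * (p : ℤ_[p]) ^ N i) • x i = ∑ j, (μ i * A i j) • b j := by
      intro i
      rw [mul_smul, hA i, Finset.smul_sum]
      exact Finset.sum_congr rfl fun j _ => by rw [mul_smul]
    rw [Finset.sum_congr rfl fun i _ => h2 i, Finset.sum_comm]
    refine Finset.sum_eq_zero fun j _ => ?_
    rw [← Finset.sum_smul]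
    have h3 := congrFun hμ j
    rw [Finset.sum_apply] at h3
    have h4 : ∑ i, μ i * A i j = 0 := h3
    rw [h4, zero_smul]
  have hp0 : (p : ℤ_[p]) ≠ 0 := by exact_mod_cast (Fact.out : p.Prime).ne_zero
  have h5 : μ i0 * (p : ℤ_[p]) ^ N i0 ≠ 0 := mul_ne_zero hi0 (pow_ne_zero _ hp0)
  have hfin : FiniteMultiplicity (p : ℤ_[p]) (μ i0 * (p : ℤ_[p]) ^ N i0) :=
    FiniteMultiplicity.of_not_isUnit (PadicInt.prime_p.not_isUnit) h5
  obtain ⟨s, hs⟩ := hfin
  exact hs (indep_descent hx (s + 1) (fun i => μ i * (p : ℤ_[p]) ^ N i) ⟨0, by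
    rw [h1, smul_zero]⟩ i0)

/-- A `ℤ_p`-module with finite torsion and finite rational rank, in which no nonzero element is
compatibly infinitely divisible by `p`, is finitely generated. -/
theorem fg_of_rational
    (hC : ∀ v : ℕ → V, (∀ k, v k = (p : ℤ_[p]) • v (k + 1)) → v 0 = 0)
    (hT : {v : V | ∃ N : ℕ, (p : ℤ_[p]) ^ N • v = 0}.Finite) (d : ℕ) (b : Fin d → V)
    (hb : ∀ v : V, ∃ (N : ℕ) (a : Fin d → ℤ_[p]), (p : ℤ_[p]) ^ N • v = ∑ i, a i • b i) :
    Module.Finite ℤ_[p] V := by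
  classical
  -- a maximal independent family
  obtain ⟨m, x, hx, hmax⟩ : ∃ (m : ℕ) (x : Fin m → V), Indep p x ∧
      ∀ y : Fin (m + 1) → V, ¬ Indep p y := by
    by_contra hcon
    push Not at hcon
    have h1 : ∀ m : ℕ, ∃ x : Fin m → V, Indep p x := by
      intro m
      induction m with
      | zero => exact ⟨fun i => i.elim0, fun l t w N _ _ i => i.elim0⟩
      | succ m ih =>
        obtain ⟨x, hx⟩ := ih
        exact hcon m x hx
    obtain ⟨x, hx⟩ := h1 (d + 1)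
    have h2 := indep_card_le b hb hx
    omega
  -- one step
  have step : ∀ v : V, ∃ z : (Fin m → ℤ_[p]) × {v : V | ∃ N : ℕ, (p : ℤ_[p]) ^ N • v = 0} × V,
      v = ∑ i, z.1 i • x i + (z.2.1 : V) + (p : ℤ_[p]) • z.2.2 := by
    intro v
    have h1 := hmax (Fin.snoc x v)
    simp only [Indep, not_forall] at h1
    obtain ⟨l, t, w, N, hN, hsum, i0, hi0⟩ := h1
    rw [Fin.sum_univ_castSucc] at hsum
    simp only [Fin.snoc_castSucc, Fin.snoc_last] at hsum
    have hlast : ¬ (p : ℤ_[p]) ∣ l (Fin.last m) := by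
      rintro ⟨c, hc⟩
      have h2 := hx (fun i => l i.castSucc) t (w - c • v) N hN (by
        rw [smul_sub, smul_smul, ← hc, eq_sub_of_add_eq hsum]
        abel)
      refine hi0 ?_
      refine Fin.lastCases ?_ (fun i => ?_) i0
      · exact ⟨c, hc⟩
      · exact h2 i
    have hu : IsUnit (l (Fin.last m)) := by
      by_contra hu
      apply hlast
      rw [PadicInt.isUnit_iff] at hu
      have h3 : ‖l (Fin.last m)‖ < 1 := lt_of_le_of_ne (PadicInt.norm_le_one _) hu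
      rw [PadicInt.norm_lt_one_iff_dvd] at h3
      exact h3
    obtain ⟨u, hu'⟩ := hu
    refine ⟨(fun i => -(((u⁻¹ : ℤ_[p]ˣ) : ℤ_[p]) * l i.castSucc),
      ⟨((u⁻¹ : ℤ_[p]ˣ) : ℤ_[p]) • t, N, by rw [smul_comm, hN, smul_zero]⟩,
      ((u⁻¹ : ℤ_[p]ˣ) : ℤ_[p]) • w), ?_⟩
    have h4 : l (Fin.last m) • v = t + (p : ℤ_[p]) • w - ∑ i : Fin m, l i.castSucc • x i := by
      rw [← hsum]
      abel
    have h5 : v = ((u⁻¹ : ℤ_[p]ˣ) : ℤ_[p]) • (l (Fin.last m) • v) := by
      rw [smul_smul, ← hu', Units.inv_mul, one_smul]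
    have h6 : ∑ i : Fin m, (-(((u⁻¹ : ℤ_[p]ˣ) : ℤ_[p]) * l i.castSucc)) • x i =
        -(((u⁻¹ : ℤ_[p]ˣ) : ℤ_[p]) • ∑ i : Fin m, l i.castSucc • x i) := by
      rw [Finset.smul_sum, ← Finset.sum_neg_distrib]
      exact Finset.sum_congr rfl fun i _ => by rw [neg_smul, mul_smul]
    show v = ∑ i : Fin m, (-(((u⁻¹ : ℤ_[p]ˣ) : ℤ_[p]) * l i.castSucc)) • x i +
      ((u⁻¹ : ℤ_[p]ˣ) : ℤ_[p]) • t + (p : ℤ_[p]) • (((u⁻¹ : ℤ_[p]ˣ) : ℤ_[p]) • w)
    rw [h6, smul_comm (p : ℤ_[p])]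
    conv_lhs => rw [h5, h4, smul_sub, smul_add]
    abel
  choose z hz using step
  have hTf : Finite {v : V | ∃ N : ℕ, (p : ℤ_[p]) ^ N • v = 0} := hT
  have : Fintype {v : V | ∃ N : ℕ, (p : ℤ_[p]) ^ N • v = 0} := Fintype.ofFinite _
  let ι := Fin m ⊕ {v : V | ∃ N : ℕ, (p : ℤ_[p]) ^ N • v = 0}
  let y : ι → V := Sum.elim x (fun t => (t : V))
  have hall : ∀ v : V, ∃ c : ι → ℤ_[p], v = ∑ i, c i • y i := by
    intro v
    let s : ℕ → V := fun k => (fun v => (z v).2.2)^[k] v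
    have hs : ∀ k, s (k + 1) = (z (s k)).2.2 := fun k => Function.iterate_succ_apply' _ _ _
    let a : ℕ → ι → ℤ_[p] := fun k => Sum.elim (z (s k)).1
      (fun t => if t = (z (s k)).2.1 then 1 else 0)
    have ha : ∀ k, s k = ∑ i, a k i • y i + (p : ℤ_[p]) • s (k + 1) := by
      intro k
      rw [hs k]
      conv_lhs => rw [hz (s k)]
      congr 1
      rw [Fintype.sum_sum_type]
      congr 1
      simp only [a, y, Sum.elim_inr]
      rw [Finset.sum_eq_single (z (s k)).2.1]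
      · rw [if_pos rfl, one_smul]
      · intro t _ ht
        rw [if_neg ht, zero_smul]
      · intro h
        exact absurd (Finset.mem_univ _) h
    choose α hα using fun i => exists_tails (p := p) (fun k => a k i)
    refine ⟨fun i => α i 0, ?_⟩
    have hsplit : ∀ k, ∑ i, α i k • y i =
        ∑ i, a k i • y i + ∑ i, (p : ℤ_[p]) • α i (k + 1) • y i := by
      intro k
      rw [← Finset.sum_add_distrib]
      refine Finset.sum_congr rfl fun i _ => ?_
      rw [← mul_smul, ← add_smul, ← hα i k]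
    have h1 := hC (fun k => s k - ∑ i, α i k • y i) (fun k => by
      rw [smul_sub, Finset.smul_sum, hsplit k]
      nth_rewrite 1 [ha k]
      abel)
    exact sub_eq_zero.1 h1
  refine ⟨⟨Finset.univ.image y, ?_⟩⟩
  rw [eq_top_iff]
  rintro v -
  obtain ⟨c, hc⟩ := hall v
  rw [hc]
  exact Submodule.sum_mem _ fun i _ => Submodule.smul_mem _ _ (Submodule.subset_span (by simp))

end Rational

end Vale.Agent.P261.R2.H700
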